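import Vale.Agent.P235.DisjointBound

namespace Vale.Agent.Results.P235.ExcludedTrianglesLinear

open Vale.Agent.P235

theorem result : ∀ (k : ℕ) (V : Type) [Fintype V] (G : SimpleGraph V),
    ¬ DisjCycles G (k + 1) → L1Bound G (3900 * (k : ℝ) + 3909) :=
  fun k _ _ G h => l1Bound_disjCycles k G h

end Vale.Agent.Results.P235.ExcludedTrianglesLinear
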