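import Vale.Agent.P235.PlaneCross

namespace Vale.Agent.Results.P235.OuterplanarLinear

open Vale.Agent.P235

theorem result :
    (∀ (V : Type) [Fintype V] (G : SimpleGraph V) (k : ℕ),
      OuterRounds k G → L1Bound G (1300 * (k : ℝ) + 1309)) ∧
    (∀ (V : Type) [Fintype V] (G : SimpleGraph V) (k : ℕ),
      Peel k G → L1Bound G (1300 * (k : ℝ) + 1309)) ∧
    (∀ (V : Type) [Fintype V] (G : SimpleGraph V) (U : ℕ → Finset V) (k : ℕ) (K C : ℝ),
      U 0 = ∅ → 0 ≤ K → 0 ≤ C →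
      (∀ j < k, ∃ S : Finset V, (∀ x, x ∈ U (j + 1) → x ∉ U j → x ∈ S) ∧
        HasExt (avoid G (U j)) S K) →
      L1Bound (avoid G (U k)) C → L1Bound G (9 * C + (1 + K) * (650 * k + 650))) ∧
    (∀ (V : Type) [Fintype V] (G : SimpleGraph V) (S : Finset V) (C : ℝ),
      0 ≤ C → L1Bound (avoid G S) C → L1Bound G (2 * C + 1032 * S.card + 1028)) ∧
    (∀ (V : Type) (G : SimpleGraph V) (L : List V),
      (L.Pairwise fun a b => ¬ G.Reachable a b) → CrossOrder G L) :=
  ⟨fun _ _ G k h => l1Bound_rounds k (peel_of_outerRounds k G h),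
    fun _ _ _ k h => l1Bound_rounds k h,
    fun _ _ _ U k _ _ h0 hK hC he h => l1Bound_layers U k h0 hK hC he h,
    fun _ _ _ S _ hC h => l1Bound_delete S hC h,
    fun _ _ _ hL => crossOrder_of_not_reachable hL⟩

end Vale.Agent.Results.P235.OuterplanarLinear
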