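import Vale.Agent.P235.Slash.Lower

namespace Vale.Agent.Results.P235.TreewidthThreeLower

open Vale.Agent.P235

theorem result : ∀ C : ℝ, C < (3 + Real.sqrt 5) / 2 →
    ∃ (V : Type) (_ : Fintype V) (G : SimpleGraph V),
      G.Connected ∧ Slash.TreewidthLE G 3 ∧ ¬ L1Bound G C :=
  fun _ hC => Slash.lower_bound hC

end Vale.Agent.Results.P235.TreewidthThreeLower
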